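import Vale.Agent.Lib.P160.RV.Defs
import Vale.Agent.Lib.P160.AntiConc

/-!
# P160, pool job P1: the symmetric block count with an abstract row bound
-/

namespace Vale.Agent.Lib.P160.H22

open Finset Matrix Vale.Agent.Lib.P160

/-- The number of distinct nonzero absolute values after deleting the coordinate `i`. -/
theorem dabs_restrict {ι : Type} [Fintype ι] [DecidableEq ι] (i : ι) (v : ι → ℝ) :
    dabs (fun k : {k // k ≠ i} => v k.1)
      = (((univ.filter fun j => v j ≠ 0).erase i).image fun j => |v j|).card := by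
  unfold dabs
  congr 1
  ext r
  simp only [mem_image, mem_filter, mem_univ, true_and, mem_erase, Subtype.exists]
  constructor
  · rintro ⟨j, hj, h1, h2⟩
    exact ⟨j, ⟨hj, h1⟩, h2⟩
  · rintro ⟨j, ⟨hj, h1⟩, h2⟩
    exact ⟨j, hj, h1, h2⟩

/-- A coordinate whose deletion keeps at least `D` distinct nonzero absolute values. -/
theorem exists_peel_index {ι : Type} [Fintype ι] [DecidableEq ι] {n D : ℕ}
    (hcard : Fintype.card ι = n + 1) (v : ι → ℝ) (hD : D ≤ dabs v) (hDn : D ≤ n) :
    ∃ i : ι, D ≤ dabs (fun k : {k // k ≠ i} => v k.1) := by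
  have hne : Nonempty ι := Fintype.card_pos_iff.1 (by omega)
  have hdv : dabs v = ((univ.filter fun j => v j ≠ 0).image fun j => |v j|).card := rfl
  by_cases hz : ∃ j, v j = 0
  · obtain ⟨i, hi⟩ := hz
    refine ⟨i, ?_⟩
    rw [dabs_restrict]
    have hnot : i ∉ univ.filter fun j => v j ≠ 0 := by simp [hi]
    rw [Finset.erase_eq_of_notMem hnot, ← hdv]
    exact hD
  · have hall : (univ.filter fun j => v j ≠ 0) = univ := by
      rw [Finset.filter_eq_self]
      intro j _ hj
      exact hz ⟨j, hj⟩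
    by_cases hinj : Function.Injective (fun j => |v j|)
    · refine ⟨hne.some, ?_⟩
      rw [dabs_restrict, hall, Finset.card_image_of_injective _ hinj,
        Finset.card_erase_of_mem (mem_univ _), Finset.card_univ, hcard]
      simpa using hDn
    · have hex : ∃ i i' : ι, i ≠ i' ∧ |v i| = |v i'| := by
        by_contra hcon
        apply hinj
        intro a b hab
        by_contra hne'
        exact hcon ⟨a, b, hne', hab⟩
      obtain ⟨i, i', hne', hff⟩ := hex
      refine ⟨i, ?_⟩
      rw [dabs_restrict, hall]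
      have himg : ((univ : Finset ι).erase i).image (fun j => |v j|)
          = (univ : Finset ι).image (fun j => |v j|) := by
        ext r
        simp only [mem_image, mem_erase, mem_univ, and_true, true_and]
        constructor
        · rintro ⟨j, _, rfl⟩
          exact ⟨j, rfl⟩
        · rintro ⟨j, rfl⟩
          by_cases hji : j = i
          · subst hji
            exact ⟨i', Ne.symm hne', hff.symm⟩
          · exact ⟨j, hji, rfl⟩
      rw [himg, ← hall, ← hdv]
      exact hD

theorem count_ss (D : ℕ) (ρ : ℝ) (hρ0 : 0 ≤ ρ) (hrow : RowBound D ρ) :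
    ∀ (n : ℕ) (ι : Type) [Fintype ι] [DecidableEq ι], Fintype.card ι = n →
    ∀ (v c : ι → ℝ), D ≤ dabs v →
      (((symSet ι).filter fun A => toR A *ᵥ v = c).card : ℝ) ≤
        2 ^ (Nat.choose (n + 1) 2) * ρ ^ (n - D) := by
  have triv : ∀ (n : ℕ) (ι : Type) [Fintype ι] [DecidableEq ι], Fintype.card ι = n →
      ∀ (v c : ι → ℝ), n ≤ D →
      (((symSet ι).filter fun A => toR A *ᵥ v = c).card : ℝ) ≤
        2 ^ (Nat.choose (n + 1) 2) * ρ ^ (n - D) := by
    intro n ι _ _ hcard v c hnD
    have h0 : n - D = 0 := Nat.sub_eq_zero_of_le hnD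
    rw [h0, pow_zero, mul_one]
    have h1 : ((symSet ι).filter fun A => toR A *ᵥ v = c).card ≤ (symSet ι).card :=
      Finset.card_filter_le _ _
    rw [card_symSet, hcard] at h1
    exact_mod_cast h1
  intro n
  induction n with
  | zero =>
    intro ι _ _ hcard v c _
    exact triv 0 ι hcard v c (Nat.zero_le D)
  | succ n ih =>
    intro ι _ _ hcard v c hD
    by_cases hnD : n + 1 ≤ D
    · exact triv (n + 1) ι hcard v c hnD
    have hDn : D ≤ n := by omega
    obtain ⟨i, hi⟩ := exists_peel_index hcard v hD hDn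
    have hcard' : Fintype.card {k // k ≠ i} = n := by
      rw [card_subtype_ne, hcard]; rfl
    have hBd0 : (0 : ℝ) ≤ 2 ^ (Nat.choose (n + 1) 2) * ρ ^ (n - D) :=
      mul_nonneg (by positivity) (pow_nonneg hρ0 _)
    have hX := hrow ι v (c i) hD
    rw [hcard] at hX
    have key := peel i (fun A => toR A *ᵥ v = c)
      ((univ : Finset (ι → ℤˣ)).filter fun x => sdot x v = c i)
      (fun x A' => toR A' *ᵥ (fun k : {k // k ≠ i} => v k.1) =
        fun k : {k // k ≠ i} => c k.1 - ((x k.1 : ℤ) : ℝ) * v i)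
      ⌊(2 : ℝ) ^ (Nat.choose (n + 1) 2) * ρ ^ (n - D)⌋₊ ?_ ?_ ?_
    · have key' : (((symSet ι).filter fun A => toR A *ᵥ v = c).card : ℝ) ≤
          (⌊(2 : ℝ) ^ (Nat.choose (n + 1) 2) * ρ ^ (n - D)⌋₊ : ℝ) *
            (((univ : Finset (ι → ℤˣ)).filter fun x => sdot x v = c i).card : ℝ) := by
        exact_mod_cast key
      refine key'.trans ?_
      have h1 : (⌊(2 : ℝ) ^ (Nat.choose (n + 1) 2) * ρ ^ (n - D)⌋₊ : ℝ) ≤
          2 ^ (Nat.choose (n + 1) 2) * ρ ^ (n - D) := Nat.floor_le hBd0
      have h2 := mul_le_mul h1 hX (Nat.cast_nonneg _) hBd0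
      refine h2.trans (le_of_eq ?_)
      have e1 : Nat.choose (n + 1 + 1) 2 = Nat.choose (n + 1) 2 + (n + 1) := by
        rw [Nat.choose_succ_succ' (n + 1) 1, Nat.choose_one_right, add_comm]
      have e2 : n + 1 - D = (n - D) + 1 := by omega
      rw [e1, e2, pow_add, pow_succ]
      ring
    · intro A _ hA
      rw [mem_filter]
      refine ⟨mem_univ _, ?_⟩
      rw [← toR_mulVec, hA]
    · intro A hA1 hA
      have hs := mem_symSet.1 hA1
      funext k
      have h1 := congrFun hA k.1
      rw [toR_mulVec] at h1 ⊢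
      unfold sdot at h1 ⊢
      rw [Fintype.sum_eq_add_sum_subtype_ne _ i] at h1
      rw [hs i k.1]
      have h2 : ∑ j : {j // j ≠ i}, ((restr i A k j : ℤ) : ℝ) * v j.1 =
          ∑ j : {j // j ≠ i}, ((A k.1 j.1 : ℤ) : ℝ) * v j.1 := rfl
      rw [h2]
      linarith
    · intro x _
      have hih := ih {k // k ≠ i} hcard' (fun k => v k.1)
        (fun k => c k.1 - ((x k.1 : ℤ) : ℝ) * v i) hi
      exact Nat.le_floor hih

end Vale.Agent.Lib.P160.H22
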