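import Vale.Agent.Lib.P160.Sparse2

/-!
P160: the Odlyzko count.  The sign vectors orthogonal to every vector of a real subspace of
dimension at least `c` number at most `2 ^ (n - c)`.
-/

namespace Vale.Agent.Lib.P160

open Finset

open Classical in
theorem odlyzko_count : ∀ (c : ℕ) (ι : Type) [Fintype ι] [DecidableEq ι]
    (W : Submodule ℝ (ι → ℝ)), c ≤ Module.finrank ℝ W →
    ((univ : Finset (ι → ℤˣ)).filter fun x => ∀ u ∈ W, sdot x u = 0).card * 2 ^ c ≤
      2 ^ Fintype.card ι := by
  intro c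
  induction c with
  | zero =>
    intro ι _ _ W _
    rw [pow_zero, mul_one]
    refine le_trans (Finset.card_filter_le _ _) ?_
    rw [Finset.card_univ, Fintype.card_fun, Fintype.card_units_int]
  | succ c ih =>
    intro ι _ _ W hW
    have hpos : 0 < Module.finrank ℝ W := by omega
    obtain ⟨w, hw0⟩ := Module.finrank_pos_iff_exists_ne_zero.1 hpos
    have hw1 : (w : ι → ℝ) ≠ 0 := fun h => hw0 (Subtype.ext h)
    obtain ⟨j, hj⟩ := Function.ne_iff.1 hw1
    have hj' : (w : ι → ℝ) j ≠ 0 := by simpa using hj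
    -- the functional `u ↦ u j` on `W`
    obtain ⟨φ, hφ⟩ : ∃ φ : W →ₗ[ℝ] ℝ, ∀ u : W, φ u = (u : ι → ℝ) j :=
      ⟨(LinearMap.proj j : (ι → ℝ) →ₗ[ℝ] ℝ).comp W.subtype, fun u => rfl⟩
    have hrn := LinearMap.finrank_range_add_finrank_ker φ
    have hr1 : Module.finrank ℝ (LinearMap.range φ) ≤ 1 := by
      have := Submodule.finrank_le (LinearMap.range φ)
      rwa [Module.finrank_self] at this
    have hker : c ≤ Module.finrank ℝ (LinearMap.ker φ) := by omega
    -- restriction to the other coordinates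
    obtain ⟨ρ, hρ⟩ : ∃ ρ : LinearMap.ker φ →ₗ[ℝ] ({k // k ≠ j} → ℝ),
        ∀ (u : LinearMap.ker φ) (k : {k // k ≠ j}), ρ u k = ((u : W) : ι → ℝ) k.1 :=
      ⟨(LinearMap.funLeft ℝ ℝ (Subtype.val : {k // k ≠ j} → ι)).comp
        (W.subtype.comp (LinearMap.ker φ).subtype), fun u k => rfl⟩
    have hzero : ∀ u : LinearMap.ker φ, ((u : W) : ι → ℝ) j = 0 := by
      intro u
      have h1 : φ (u : W) = 0 := u.2
      rwa [hφ] at h1
    have hρinj : Function.Injective ρ := by
      intro u v huv
      apply Subtype.ext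
      apply Subtype.ext
      funext k
      by_cases hk : k = j
      · subst hk
        rw [hzero u, hzero v]
      · have h2 := congrFun huv ⟨k, hk⟩
        rw [hρ, hρ] at h2
        exact h2
    have hfr : c ≤ Module.finrank ℝ (LinearMap.range ρ) := by
      rw [LinearMap.finrank_range_of_inj hρinj]
      exact hker
    have hIH := ih {k // k ≠ j} (LinearMap.range ρ) hfr
    rw [card_subtype_ne] at hIH
    have hcard : 0 < Fintype.card ι := Fintype.card_pos_iff.2 ⟨j⟩
    -- the restriction map on sign vectors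
    have hle : ((univ : Finset (ι → ℤˣ)).filter fun x => ∀ u ∈ W, sdot x u = 0).card ≤
        ((univ : Finset ({k // k ≠ j} → ℤˣ)).filter
          fun x => ∀ u ∈ LinearMap.range ρ, sdot x u = 0).card := by
      refine Finset.card_le_card_of_injOn (fun (x : ι → ℤˣ) (k : {k // k ≠ j}) => x k.1) ?_ ?_
      · intro x hx
        rw [mem_coe, mem_filter] at hx
        rw [mem_coe, mem_filter]
        refine ⟨mem_univ _, ?_⟩
        rintro v ⟨u, rfl⟩
        have h0 : ((u : W) : ι → ℝ) j = 0 := hzero u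
        have h3 := sdot_restr j x ((u : W) : ι → ℝ) h0
        have h4 : ρ u = fun k : {k // k ≠ j} => ((u : W) : ι → ℝ) k.1 := funext fun k => hρ u k
        rw [h4, h3]
        exact hx.2 _ (u : W).2
      · intro x hx y hy hxy
        rw [mem_coe, mem_filter] at hx hy
        have hoff : ∀ k, k ≠ j → x k = y k := fun k hk => congrFun hxy ⟨k, hk⟩
        have hx0 := hx.2 _ w.2
        have hy0 := hy.2 _ w.2
        unfold sdot at hx0 hy0
        rw [Fintype.sum_eq_add_sum_subtype_ne _ j] at hx0 hy0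
        have hsum : (∑ i : {i // i ≠ j}, ((x i.1 : ℤ) : ℝ) * (w : ι → ℝ) i.1) =
            ∑ i : {i // i ≠ j}, ((y i.1 : ℤ) : ℝ) * (w : ι → ℝ) i.1 :=
          Finset.sum_congr rfl fun i _ => by rw [hoff i.1 i.2]
        have hmul : ((x j : ℤ) : ℝ) * (w : ι → ℝ) j = ((y j : ℤ) : ℝ) * (w : ι → ℝ) j := by
          linarith
        have hxy' : ((x j : ℤ) : ℝ) = ((y j : ℤ) : ℝ) := mul_right_cancel₀ hj' hmul
        have hj2 : x j = y j := Units.ext (Int.cast_injective hxy')
        funext k
        by_cases hk : k = j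
        · subst hk
          exact hj2
        · exact hoff k hk
    calc ((univ : Finset (ι → ℤˣ)).filter fun x => ∀ u ∈ W, sdot x u = 0).card * 2 ^ (c + 1)
        ≤ ((univ : Finset ({k // k ≠ j} → ℤˣ)).filter
            fun x => ∀ u ∈ LinearMap.range ρ, sdot x u = 0).card * 2 ^ (c + 1) :=
          Nat.mul_le_mul_right _ hle
      _ = ((univ : Finset ({k // k ≠ j} → ℤˣ)).filter
            fun x => ∀ u ∈ LinearMap.range ρ, sdot x u = 0).card * 2 ^ c * 2 := by
          rw [pow_succ, mul_assoc]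
      _ ≤ 2 ^ (Fintype.card ι - 1) * 2 := Nat.mul_le_mul_right _ hIH
      _ = 2 ^ Fintype.card ι := by
          rw [← pow_succ, Nat.sub_add_cancel hcard]

end Vale.Agent.Lib.P160
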